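import Vale.Agent.Q235.Main

/-! P235: `c₁` and the flow-cut gap are bounded on planar graphs, bounded treewidth, bounded genus,
almost embeddable graphs, and on arbitrary clique sums of almost embeddable graphs along cliques in
the apices and vortices. -/

namespace Vale.Agent.Results.P235.A00HungSums

open Vale.Agent.P235 Vale.Agent.P235.H134 Vale.Agent.P235U Vale.Agent.P235L Vale.Agent.Q235

/-- `Bd G C`: `c₁(G) ≤ C` and the multicommodity flow-cut gap of `G` is at most `C`. All graphs are
finite and connected, the constants depend neither on the number of vertices nor on the lengths.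
(1) Planar graphs: an absolute constant.
(2) Treewidth at most `k`: an explicit constant.
(3) Euler genus at most `g`: `A log (g + 2)`.
(4) Almost embeddable graphs (apices, genus, vortices).
(5) Q1 for every minor-closed family that omits a graph drawn with at most one crossing.
(6) All minors of sums of any number of `Tame` pieces along any tree, in which every clique, with at
most `j` exceptions on each branch, lies in the sets `A`, `X` and the root clique of the piece on
which it hangs, or has at most one vertex outside `A` and the root clique. A piece is `Tame` if it is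
almost embeddable with the apices `A` and with `X` inside the vortices, or if `c₁ ≤ D`, `A` has at
most `a` vertices and no `r × r` grid minor is rooted at `X`.
(7) All minors of sums of any number of pieces of Euler genus at most `g`, all cliques at which have
at most three vertices and are otherwise arbitrary, and of `Tame` pieces, the cliques on which lie
in `A`, `X` and the root clique.
(8) `c₁(G)` is bounded in terms of `c₁` of the components of `G - X` and of the `X`-rooted minors. -/
theorem result :
    (∃ C : ℝ, ∀ (V : Type) [Finite V] (G : SimpleGraph V), G.Connected → Planar G → Bd G C) ∧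
    (∀ (k : ℕ) (V : Type) [Finite V] (G : SimpleGraph V), G.Connected → TreewidthLE G k →
      Bd G ((4 * (k + 1)) ^ (270 * (k + 1) ^ 8))) ∧
    (∃ A : ℝ, ∀ (g : ℕ) (V : Type) [Finite V] (G : SimpleGraph V), G.Connected → Drawn g G →
      Bd G (A * Real.log (g + 2))) ∧
    (∀ a g p w : ℕ, ∃ C : ℝ, ∀ (V : Type) [Finite V] (G : SimpleGraph V), G.Connected →
      AlmostEmb a g p w G → Bd G C) ∧
    (∀ F : (V : Type) → SimpleGraph V → Prop, MinorClosed F →
      (∃ (W : Type) (_ : Finite W) (X : SimpleGraph W), X.Connected ∧ AtMostOneX X ∧ ¬ F W X) →
      ∃ C : ℝ, ∀ (V : Type) [Finite V] (G : SimpleGraph V), G.Connected → F V G → Bd G C) ∧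
    (∀ (a g p w r : ℕ) (D : ℝ) (j : ℕ), ∃ C : ℝ, ∀ (V W : Type) [Finite V] [Finite W]
      (H : SimpleGraph V) (G : SimpleGraph W), H.Connected → G.Connected →
      HungSum (Tame a g p w r D) j H → IsMinor G H → Bd G C) ∧
    (∀ (a g p w r : ℕ) (D : ℝ), ∃ C : ℝ, ∀ (V W : Type) [Finite V] [Finite W]
      (H : SimpleGraph V) (G : SimpleGraph W), H.Connected → G.Connected →
      MixSum (Tame a g p w r D) g H → IsMinor G H → Bd G C) ∧
    ∀ D : ℝ, ∃ C : ℝ, ∀ (V : Type) [Finite V] (G : SimpleGraph V) (X : Set V), G.Connected →
      (∀ u ∉ X, DistortionLE (G.induce (compSet G X u)) D) →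
      (∀ (W : Type) [Finite W] (M : SimpleGraph W), M.Connected → RootedMinor M G X →
        DistortionLE M D) → Bd G C :=
  ⟨P235L.final.1, fun k V _ G hG h => P235L.bd_of hG (N235Y.tw_growth k V G hG h), drawn,
    P235L.final.2.2, family, hung, mix, rooted⟩

end Vale.Agent.Results.P235.A00HungSums
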