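import Vale.Agent.Q235V.Main

/-! P235: `c₁` and the flow-cut gap are bounded on nested clique sums of almost embeddable graphs
which are glued inside apices and vortices, mixed with graphs on surfaces and graphs of bounded
treewidth. -/

namespace Vale.Agent.Results.P235.A01NestedVortex

open Vale.Agent.P235 Vale.Agent.P235U Vale.Agent.Q235V

/-- `Bd G C`: `c₁(G) ≤ C` and the multicommodity flow-cut gap of `G` is at most `C`. All graphs are
finite and connected, the constant depends neither on the number of vertices nor on the lengths.
Round `0`: the `(a, g, p, w)`-almost embeddable graphs, `Surf3`, and the graphs whose components
have `c₁ ≤ D`. Round `j + 1`: the graphs of round `j` with at most `a` more vertices; their minors;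
the graphs with a set `X` such that the components of `G - X` and the connected `X`-rooted minors
are in round `j`; and the spanning subgraphs of graphs glued from any number of pieces along cliques
of any size, along a tree of any depth and degree with levels `0, …, q`, not decreasing downwards,
every level being of one of the three kinds of `LevelsV`. -/
theorem result (D : ℝ) (a g p w k c q j : ℕ) : ∃ C : ℝ, ∀ (V : Type) [Finite V]
    (G : SimpleGraph V), G.Connected → RoundV D a g p w k c q j V G → Bd G C :=
  roundsV D a g p w k c q j

end Vale.Agent.Results.P235.A01NestedVortex
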